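import Vale.Agent.P200.Deg.Split

/-!
P200: modulo a smooth conic every form of degree `b ≥ 2` is a product of `b` linear forms: pair
the `2b` zeros on the conic into lines.
-/

noncomputable section

namespace Vale.Agent.P200.Deg

open MvPolynomial Module Finset

variable {K : Type*} [Field K] {n : ℕ}

lemma finrank_part_zero_eq : finrank K (part K n 0) = 1 := by
  rw [part, homogeneousSubmodule_zero, Submodule.one_eq_span]
  exact finrank_span_singleton one_ne_zero

lemma finrank_part_succ (n d : ℕ) :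
    finrank K (part K (n + 1) (d + 1)) = finrank K (part K (n + 1) d) + finrank K (part K n (d + 1)) := by
  obtain ⟨H⟩ := exists_hyper (isHomogeneous_X K (0 : Fin (n + 1))) (X_ne_zero _)
  have e := H.finrank_piece (I := ⊤) (fun _ _ _ => Submodule.mem_top) (isHomogeneous_X K _)
    (X_ne_zero _) d
  rwa [show P200.colon (⊤ : Ideal (MvPolynomial (Fin (n + 1)) K)) (X 0) = ⊤ from
    Submodule.comap_top _, show H.res ⊤ = ⊤ from Ideal.map_top _, piece_top, piece_top, piece_top] at e

lemma finrank_part_two (d : ℕ) : finrank K (part K 2 d) = d + 1 := by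
  have h1 : ∀ d, finrank K (part K 1 d) = 1 := fun d => by
    induction d with
    | zero => exact finrank_part_zero_eq
    | succ d ih => rw [finrank_part_succ, ih, piece_zero_vars]; simp
  induction d with
  | zero => exact finrank_part_zero_eq
  | succ d ih => rw [finrank_part_succ, ih, h1]

lemma SplitN.map {m : ℕ} {a : ℕ} {p : MvPolynomial (Fin n) K} (hp : SplitN a p)
    (φ : MvPolynomial (Fin n) K →ₐ[K] MvPolynomial (Fin m) K)
    (hφ : ∀ l : MvPolynomial (Fin n) K, l.IsHomogeneous 1 → (φ l).IsHomogeneous 1) :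
    SplitN a (φ p) := by
  obtain ⟨L, hL, rfl⟩ := hp
  exact ⟨fun k => φ (L k), fun k => hφ _ (hL k), by rw [map_prod]⟩

variable [IsAlgClosed K]

/-- The case of a conic through the first coordinate point. -/
lemma split_mod_conic_aux {b c d e g : K} (hD : disc 0 b c d e g ≠ 0) {k : ℕ}
    {f : MvPolynomial (Fin 3) K} (hf : f.IsHomogeneous (k + 2)) :
    ∃ h, h.IsHomogeneous k ∧ SplitN (k + 2) (f - (b • (X 1 * X 1) + c • (X 2 * X 2) +
      d • (X 0 * X 1) + e • (X 0 * X 2) + g • (X 1 * X 2)) * h) := by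
  set q : MvPolynomial (Fin 3) K := b • (X 1 * X 1) + c • (X 2 * X 2) + d • (X 0 * X 1) +
    e • (X 0 * X 2) + g • (X 1 * X 2) with hqdef
  set s : MvPolynomial (Fin 2) K := X 0
  set t : MvPolynomial (Fin 2) K := X 1
  set l := C d * s + C e * t with hl
  set Q := C b * s ^ 2 + C g * (s * t) + C c * t ^ 2 with hQ
  set φ : MvPolynomial (Fin 3) K →ₐ[K] MvPolynomial (Fin 2) K := aeval ![-Q, s * l, t * l] with hφ
  have hst : ∀ i : Fin 2, (X i : MvPolynomial (Fin 2) K).IsHomogeneous 1 := isHomogeneous_X K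
  have hlh : l.IsHomogeneous 1 := ((hst 0).C_mul d).add ((hst 1).C_mul e)
  have hQh : Q.IsHomogeneous 2 :=
    ((((hst 0).pow 2).C_mul b).add (((hst 0).mul (hst 1)).C_mul g)).add (((hst 1).pow 2).C_mul c)
  have hφh : ∀ {p : MvPolynomial (Fin 3) K} {j : ℕ}, p.IsHomogeneous j →
      (φ p).IsHomogeneous (2 * j) := fun hp =>
    hp.aeval _ fun i => by fin_cases i; exacts [hQh.neg, (hst 0).mul hlh, (hst 1).mul hlh]
  have hφq : φ q = 0 := by
    simp [hqdef, hφ, smul_eq_C_mul, hl, hQ]
    ring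
  have hq2 : q.IsHomogeneous 2 := by
    simp only [hqdef, smul_eq_C_mul]
    have := fun i j : Fin 3 => (isHomogeneous_X K i).mul (isHomogeneous_X K j)
    exact ((((this 1 1).C_mul _).add ((this 2 2).C_mul _)).add ((this 0 1).C_mul _)).add
      ((this 0 2).C_mul _) |>.add ((this 1 2).C_mul _)
  have hq0 : q ≠ 0 := by
    intro h0
    refine hD ?_
    have hb := congrArg (coeff (Finsupp.single (1 : Fin 3) 2)) h0
    have hc := congrArg (coeff (Finsupp.single (2 : Fin 3) 2)) h0
    have h01 := congrArg (eval ![1, 1, 0]) h0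
    have h02 := congrArg (eval ![1, 0, 1]) h0
    have h11 := congrArg (eval ![0, 1, 0]) h0
    have h22 := congrArg (eval ![0, 0, 1]) h0
    simp [hqdef] at h01 h02 h11 h22
    subst h11 h22
    simp at h01 h02
    subst h01 h02
    simp [disc]
  -- every binary quadric is the image of a linear form
  have hlin : ∀ w : MvPolynomial (Fin 2) K, w.IsHomogeneous 2 →
      ∃ p : MvPolynomial (Fin 3) K, p.IsHomogeneous 1 ∧ φ p = w := by
    intro w hw
    obtain ⟨M, rfl⟩ := quad_expand hw
    obtain ⟨A, hA⟩ : ∃ A, A = M (0, 0) := ⟨_, rfl⟩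
    obtain ⟨B, hB⟩ : ∃ B, B = M (0, 1) + M (1, 0) := ⟨_, rfl⟩
    obtain ⟨D, hD'⟩ : ∃ D, D = M (1, 1) := ⟨_, rfl⟩
    set δ := (disc 0 b c d e g)⁻¹
    set x0 := δ * (A * e ^ 2 - d * e * B + d ^ 2 * D) with hx0
    set x1 := -(δ * ((c * d - g * e) * A + b * e * B - b * d * D)) with hx1
    set x2 := δ * (e * c * A - d * c * B + (g * d - b * e) * D) with hx2
    have hδ : δ * disc 0 b c d e g = 1 := inv_mul_cancel₀ hD
    have e1 : A = -(b * x0) + d * x1 := by
      simp only [hx0, hx1, disc] at hδ ⊢; linear_combination -A * hδ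
    have e2 : B = -(g * x0) + e * x1 + d * x2 := by
      simp only [hx0, hx1, hx2, disc] at hδ ⊢; linear_combination -B * hδ
    have e3 : D = -(c * x0) + e * x2 := by
      simp only [hx0, hx2, disc] at hδ ⊢; linear_combination -D * hδ
    refine ⟨∑ i, (![x0, x1, x2] : Fin 3 → K) i • X i, isHomogeneous_lin _, ?_⟩
    have f1 := congrArg (C : K → MvPolynomial (Fin 2) K) (hA ▸ e1)
    have f2 := congrArg (C : K → MvPolynomial (Fin 2) K) (hB ▸ e2)
    have f3 := congrArg (C : K → MvPolynomial (Fin 2) K) (hD' ▸ e3)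
    simp only [map_add, map_mul, map_neg] at f1 f2 f3
    simp [hφ, Fin.sum_univ_three, Fintype.sum_prod_type, Fin.sum_univ_two, smul_eq_C_mul, hl, hQ]
    linear_combination -(s * s) * f1 - (s * t) * f2 - (t * t) * f3
  -- every binary form of even degree is the image of a product of lines
  have hpair : ∀ j, ∀ w : MvPolynomial (Fin 2) K, w.IsHomogeneous (2 * (j + 1)) →
      ∃ p, SplitN (j + 1) p ∧ φ p = w := by
    intro j
    induction j with
    | zero =>
      intro w hw
      obtain ⟨p, hp, he⟩ := hlin w (by simpa using hw)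
      exact ⟨p, ⟨fun _ => p, fun _ => hp, by simp⟩, he⟩
    | succ j ih =>
      intro w hw
      obtain ⟨L, hL, hLe⟩ := splitN_binary (2 * (j + 1) + 2) w (by convert hw using 1; ring) (by omega)
      rw [Fin.prod_univ_succ, Fin.prod_univ_succ] at hLe
      obtain ⟨p0, hp0, he0⟩ := hlin (L 0 * L (Fin.succ 0)) ((hL 0).mul (hL _))
      obtain ⟨p1, ⟨M, hM, rfl⟩, he1⟩ := ih (∏ i : Fin (2 * (j + 1)), L i.succ.succ) (by
        simpa using IsHomogeneous.prod univ (fun i : Fin (2 * (j + 1)) => L i.succ.succ) (fun _ => 1)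
          fun i _ => hL _)
      refine ⟨p0 * ∏ i, M i, ⟨Fin.cons p0 M, fun i => Fin.cases (by simpa using hp0)
        (fun i => by simpa using hM i) i, (Fin.prod_cons p0 M).symm⟩, ?_⟩
      rw [map_mul, he0, he1, hLe, mul_assoc]
  have hmem : ∀ {p : MvPolynomial (Fin 3) K} {a : ℕ}, SplitN a p → p.IsHomogeneous a := by
    rintro p a ⟨M, hM, rfl⟩
    simpa using IsHomogeneous.prod univ M (fun _ => 1) fun i _ => hM i
  obtain ⟨p, hp, hpe⟩ := hpair (k + 1) (φ f) (hφh hf)
  -- the kernel in degree `k + 2` is `q` times degree `k`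
  set T := φ.toLinearMap.domRestrict (part K 3 (k + 2))
  have hrange : LinearMap.range T = part K 2 (2 * (k + 2)) := by
    refine le_antisymm ?_ fun w hw => ?_
    · rintro _ ⟨x, rfl⟩; exact hφh x.2
    · obtain ⟨p', hp', he⟩ := hpair (k + 1) w hw
      exact ⟨⟨p', hmem hp'⟩, he⟩
  have hker : (LinearMap.ker T).map (part K 3 (k + 2)).subtype
      = (part K 3 k).map (LinearMap.mulLeft K q) := by
    have h1 := LinearMap.finrank_range_add_finrank_ker T
    rw [hrange, finrank_part_two] at h1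
    have a1 : finrank K (part K 3 (k + 2)) = finrank K (part K 3 (k + 1)) + (k + 3) := by
      rw [← finrank_part_two (K := K) (k + 2)]; exact finrank_part_succ 2 (k + 1)
    have a2 : finrank K (part K 3 (k + 1)) = finrank K (part K 3 k) + (k + 2) := by
      rw [← finrank_part_two (K := K) (k + 1)]; exact finrank_part_succ 2 k
    refine (Submodule.eq_of_le_of_finrank_le ?_ ?_).symm
    · rintro _ ⟨x, hx, rfl⟩
      exact ⟨⟨q * x, (add_comm 2 k) ▸ hq2.mul hx⟩, LinearMap.mem_ker.2 (show φ (q * x) = 0 by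
        rw [map_mul, hφq, zero_mul]), rfl⟩
    · rw [Submodule.finrank_map_subtype_eq,
        ← (Submodule.equivMapOfInjective _ (mul_right_injective₀ hq0) _).finrank_eq]
      omega
  have hfp : f - p ∈ (part K 3 k).map (LinearMap.mulLeft K q) := by
    rw [← hker]
    refine ⟨⟨f - p, hf.sub (hmem hp)⟩, LinearMap.mem_ker.2 (show φ (f - p) = 0 by
      rw [map_sub, hpe, sub_self]), rfl⟩
  obtain ⟨h, hh, he⟩ := hfp
  exact ⟨h, hh, by rw [show f - q * h = p by rw [show q * h = f - p from he]; abel]; exact hp⟩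

/-- Modulo a nonsplit ternary quadric every form of degree at least two splits. -/
theorem split_mod_conic {q f : MvPolynomial (Fin 3) K} (hq : q.IsHomogeneous 2) (hns : ¬Split q)
    {k : ℕ} (hf : f.IsHomogeneous (k + 2)) :
    ∃ h, SplitN (k + 2) (f - q * h) ∧ h.IsHomogeneous k := by
  obtain ⟨M, hM⟩ := quad_expand hq
  set a := M (0, 0) with ha'
  set b := M (1, 1) with hb'
  set c := M (2, 2) with hc'
  set d := M (0, 1) + M (1, 0) with hd'
  set e := M (0, 2) + M (2, 0) with he'
  set g := M (1, 2) + M (2, 1) with hg'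
  have hqe : q = a • (X 0 * X 0) + b • (X 1 * X 1) + c • (X 2 * X 2) + d • (X 0 * X 1) +
      e • (X 0 * X 2) + g • (X 1 * X 2) := by
    rw [hM]
    simp [Fintype.sum_prod_type, Fin.sum_univ_three, ha', hb', hc', hd', he', hg', add_smul,
      smul_eq_C_mul]
    ring
  have hD : disc a b c d e g ≠ 0 := fun h0 => by
    obtain ⟨u0, u1, u2, w0, w1, w2, e0, e1, e2, e3, e4, e5⟩ := isProd_of_disc h0
    refine hns ⟨∑ i, (![u0, u1, u2] : Fin 3 → K) i • X i, ∑ i, (![w0, w1, w2] : Fin 3 → K) i • X i,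
      isHomogeneous_lin _, isHomogeneous_lin _, ?_⟩
    rw [hqe, e0, e1, e2, e3, e4, e5]
    simp [Fin.sum_univ_three, smul_eq_C_mul]
    ring
  by_cases ha : a = 0
  · obtain ⟨h, hh, hs⟩ := split_mod_conic_aux (ha ▸ hD) hf
    refine ⟨h, ?_, hh⟩
    rw [hqe, ha, zero_smul, zero_add]
    exact hs
  obtain ⟨r, hr⟩ := exists_quad_root ha d b
  set σ : MvPolynomial (Fin 3) K →ₐ[K] MvPolynomial (Fin 3) K :=
    aeval ![r • X 0 + X 1, X 0, X 2] with hσ
  set τ : MvPolynomial (Fin 3) K →ₐ[K] MvPolynomial (Fin 3) K :=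
    aeval ![X 1, X 0 - r • X 1, X 2] with hτ
  have hτσ : ∀ p, τ (σ p) = p := by
    have : τ.comp σ = AlgHom.id K _ :=
      algHom_ext fun i => by fin_cases i <;> simp [hσ, hτ, smul_eq_C_mul]
    exact fun p => DFunLike.congr_fun this p
  have hX := isHomogeneous_X K (σ := Fin 3)
  have hσh : ∀ {p : MvPolynomial (Fin 3) K} {j : ℕ}, p.IsHomogeneous j →
      (σ p).IsHomogeneous j := fun {p j} hp => one_mul j ▸ hp.aeval (![r • X 0 + X 1, X 0, X 2] : Fin 3 → MvPolynomial (Fin 3) K) fun i => by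
    fin_cases i
    exacts [(by simpa [smul_eq_C_mul] using ((hX 0).C_mul r).add (hX 1)), hX 0, hX 2]
  have hτh : ∀ {p : MvPolynomial (Fin 3) K} {j : ℕ}, p.IsHomogeneous j →
      (τ p).IsHomogeneous j := fun {p j} hp => one_mul j ▸ hp.aeval (![X 1, X 0 - r • X 1, X 2] : Fin 3 → MvPolynomial (Fin 3) K) fun i => by
    fin_cases i
    exacts [hX 1, (by simpa [smul_eq_C_mul] using (hX 0).sub ((hX 1).C_mul r)), hX 2]
  have hD' : disc 0 a c (d + 2 * a * r) (g + e * r) e ≠ 0 := fun h => hD (by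
    simp only [disc] at h ⊢
    linear_combination h - (e ^ 2 - 4 * a * c) * hr)
  have hσq : σ q = a • (X 1 * X 1) + c • (X 2 * X 2) + (d + 2 * a * r) • (X 0 * X 1) +
      (g + e * r) • (X 0 * X 2) + e • (X 1 * X 2) := by
    have hr' := congrArg (C : K → MvPolynomial (Fin 3) K) hr
    simp only [map_add, map_mul, map_pow, map_zero] at hr'
    rw [hqe]
    simp [hσ, smul_eq_C_mul, map_ofNat]
    linear_combination (X 0 * X 0) * hr'
  obtain ⟨h, hh, hs⟩ := split_mod_conic_aux hD' (hσh hf)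
  refine ⟨τ h, ?_, hτh hh⟩
  have h2 := hs.map τ fun l hl => hτh hl
  rwa [← hσq, map_sub, map_mul, hτσ, hτσ] at h2

end Vale.Agent.P200.Deg
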