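import Vale.Agent.P200.Deg.Main

/-!
P200: a regular sequence of `c` forms is completed by powers of generic linear forms to a family
of finite colength; regularity survives an extension of the field.
-/

noncomputable section

namespace Vale.Agent.P200.Deg

open MvPolynomial Module Finset

variable {K : Type*} [Field K] {n c : ℕ}

/-- Multiplication by each form is injective modulo the earlier ones. -/
def Regular (q : Fin c → MvPolynomial (Fin n) K) : Prop :=
  ∀ i, ∀ p, q i * p ∈ Ideal.span (q '' {k | k < i}) → p ∈ Ideal.span (q '' {k | k < i})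

/-- Applying a linear functional to every coefficient. -/
def coeffMap {L : Type*} [Field L] [Algebra K L] (φ : L →ₗ[K] K) (p : MvPolynomial (Fin n) L) :
    MvPolynomial (Fin n) K :=
  ∑ s ∈ p.support, monomial s (φ (coeff s p))

lemma coeff_coeffMap {L : Type*} [Field L] [Algebra K L] (φ : L →ₗ[K] K)
    (p : MvPolynomial (Fin n) L) (s : Fin n →₀ ℕ) : coeff s (coeffMap φ p) = φ (coeff s p) := by
  classical
  simp only [coeffMap, coeff_sum, coeff_monomial, Finset.sum_ite_eq', MvPolynomial.mem_support_iff]
  split_ifs with h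
  · rfl
  · rw [not_ne_iff.1 h, map_zero]

lemma coeffMap_ext_mul {L : Type*} [Field L] [Algebra K L] (φ : L →ₗ[K] K)
    (r : MvPolynomial (Fin n) K) (p : MvPolynomial (Fin n) L) :
    coeffMap φ (ext L r * p) = r * coeffMap φ p := by
  classical
  ext s
  rw [coeff_coeffMap, coeff_mul, coeff_mul, map_sum]
  refine Finset.sum_congr rfl fun x _ => ?_
  rw [coeff_coeffMap, coeff_map, ← Algebra.smul_def, map_smul, smul_eq_mul]

lemma coeffMap_mem {L : Type*} [Field L] [Algebra K L] (φ : L →ₗ[K] K)
    (S : Set (MvPolynomial (Fin n) K)) {p : MvPolynomial (Fin n) L}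
    (hp : p ∈ Ideal.span (ext L '' S)) : coeffMap φ p ∈ Ideal.span S := by
  suffices ∀ r, coeffMap φ (r * p) ∈ Ideal.span S by simpa using this 1
  induction hp using Submodule.span_induction with
  | mem x hx =>
    obtain ⟨g, hg, rfl⟩ := hx
    intro r
    rw [mul_comm, coeffMap_ext_mul]
    exact Ideal.mul_mem_right _ _ (Ideal.subset_span hg)
  | zero => intro r; simp [coeffMap]
  | add x y _ _ hx hy =>
    intro r
    have : coeffMap φ (r * (x + y)) = coeffMap φ (r * x) + coeffMap φ (r * y) := by
      ext s; simp [coeff_coeffMap, mul_add]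
    rw [this]; exact add_mem (hx r) (hy r)
  | smul a x _ hx =>
    intro r
    rw [smul_eq_mul, ← mul_assoc]; exact hx _

lemma mem_span_of_coeffMap {L : Type*} [Field L] [Algebra K L]
    (S : Set (MvPolynomial (Fin n) K)) {p : MvPolynomial (Fin n) L}
    (hp : ∀ φ : L →ₗ[K] K, coeffMap φ p ∈ Ideal.span S) : p ∈ Ideal.span (ext L '' S) := by
  classical
  let b := Module.Free.chooseBasis K L
  set U := p.support.biUnion fun s => (b.repr (coeff s p)).support
  have e : p = ∑ k ∈ U, C (b k) * ext L (coeffMap (b.coord k) p) := by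
    ext s
    simp only [coeff_sum, coeff_C_mul, coeff_map, coeff_coeffMap, Basis.coord_apply]
    conv_lhs => rw [← b.linearCombination_repr (coeff s p), Finsupp.linearCombination_apply,
      Finsupp.sum]
    refine (Finset.sum_subset (fun k hk => ?_) fun k _ hk => ?_).trans
      (Finset.sum_congr rfl fun k _ => by rw [Algebra.smul_def, mul_comm])
    · by_cases hs : s ∈ p.support
      · exact mem_biUnion.2 ⟨s, hs, hk⟩
      · simp [notMem_support_iff.1 hs] at hk
    · rw [Finsupp.notMem_support_iff.1 hk, zero_smul]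
  rw [e]
  refine Ideal.sum_mem _ fun k _ => Ideal.mul_mem_left _ _ ?_
  rw [← Ideal.map_span]
  exact Ideal.mem_map_of_mem _ (hp _)

/-- Regular sequences stay regular over a larger field. -/
lemma Regular.extend {L : Type*} [Field L] [Algebra K L] {q : Fin c → MvPolynomial (Fin n) K}
    (hq : Regular q) : Regular fun i => ext L (q i) := by
  intro i p hp
  rw [← Set.image_image (ext L) q] at hp ⊢
  refine mem_span_of_coeffMap _ fun φ => hq i _ ?_
  rw [← coeffMap_ext_mul]
  exact coeffMap_mem φ _ hp

/-- An element regular modulo an ideal lies in no minimal prime over it. -/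
lemma notMem_minimalPrime_of_regular {R : Type*} [CommRing R] {I Q : Ideal R}
    (hQ : Q ∈ I.minimalPrimes) {y : R} (hy : ∀ x, y * x ∈ I → x ∈ I) : y ∉ Q := by
  intro hmem
  rw [Ideal.minimalPrimes_eq_comap] at hQ
  obtain ⟨Q', hQ', rfl⟩ := hQ
  refine notMem_nonZeroDivisors_of_mem_mem_minimalPrimes (x := Ideal.Quotient.mk I y) hmem hQ'
    (mem_nonZeroDivisors_iff_right.2 fun x hx => ?_)
  obtain ⟨x, rfl⟩ := Ideal.Quotient.mk_surjective x
  rw [← map_mul, Ideal.Quotient.eq_zero_iff_mem, mul_comm] at hx
  exact Ideal.Quotient.eq_zero_iff_mem.2 (hy x hx)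

/-- Every prime containing a regular sequence of length `c` has height at least `c`. -/
lemma Regular.le_height {q : Fin c → MvPolynomial (Fin n) K} (hq : Regular q) :
    ∀ k, k ≤ c → ∀ P : Ideal (MvPolynomial (Fin n) K), P.IsPrime →
      Ideal.span (q '' {i | (i : ℕ) < k}) ≤ P → (k : ℕ∞) ≤ P.height := by
  intro k hk
  induction k with
  | zero => intro P _ _; simp
  | succ k ih =>
    intro P hP hle
    set J := Ideal.span (q '' {i | (i : ℕ) < k})
    have hJP : J ≤ P := by
      refine Ideal.span_le.2 ?_
      rintro _ ⟨i, hi, rfl⟩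
      exact hle (Ideal.subset_span (Set.mem_image_of_mem q (Nat.lt_succ_of_lt hi : (i : ℕ) < k + 1)))
    obtain ⟨Q, hQ, hQP⟩ := Ideal.exists_minimalPrimes_le hJP
    have hQprime := hQ.1.1
    have hset : ({i | (i : ℕ) < k} : Set (Fin c)) = {i | i < (⟨k, by omega⟩ : Fin c)} := rfl
    have hnot : q ⟨k, by omega⟩ ∉ Q := by
      refine notMem_minimalPrime_of_regular hQ fun x hx => ?_
      simp only [J, hset] at hx ⊢
      exact hq ⟨k, by omega⟩ x hx
    have hlt : Q < P := lt_of_le_of_ne hQP fun h =>
      hnot (h ▸ hle (Ideal.subset_span ⟨_, show k < k + 1 by omega, rfl⟩))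
    push_cast
    exact (add_le_add (ih (by omega) Q hQprime hQ.1.2) le_rfl).trans
      (Ideal.height_add_one_le_of_lt_of_isPrime hlt)

variable [IsAlgClosed K]

/-- Generic linear forms complete a regular sequence: the common zero is only the origin. -/
theorem exists_linear_completion {r : ℕ} {q : Fin c → MvPolynomial (Fin (c + r)) K}
    {a : Fin c → ℕ} (ha : ∀ i, 1 ≤ a i) (hd : ∀ i, (q i).IsHomogeneous (a i)) (hq : Regular q) :
    ∃ l : Fin r → MvPolynomial (Fin (c + r)) K, (∀ j, (l j).IsHomogeneous 1) ∧
      ∀ v, (∀ i, eval v (q i) = 0) → (∀ j, eval v (l j) = 0) → v = 0 := by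
  classical
  set m := RingHom.ker (killFirst K (c + r) (c + r))
  have hmP : m.IsPrime := isPrime_killFirst _ _
  have hXm : ∀ P : Ideal (MvPolynomial (Fin (c + r)) K), (∀ i, X i ∈ P) → m ≤ P := by
    intro P hX p hp
    have hcong : (Ideal.Quotient.mkₐ K P).comp (killFirst K (c + r) (c + r))
        = Ideal.Quotient.mkₐ K P :=
      algHom_ext fun i => by simp [killFirst, Ideal.Quotient.eq_zero_iff_mem.2 (hX i)]
    have : Ideal.Quotient.mkₐ K P p = 0 := by
      rw [← hcong, AlgHom.comp_apply, show killFirst K (c + r) (c + r) p = 0 from hp, map_zero]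
    exact Ideal.Quotient.eq_zero_iff_mem.1 this
  have hm : ((c + r : ℕ) : ℕ∞) ≤ m.height := le_primeHeight_killFirst (K := K) _ _ le_rfl
  have hext : ∀ t, t ≤ r → ∃ l : Fin t → MvPolynomial (Fin (c + r)) K,
      (∀ j, (l j).IsHomogeneous 1) ∧ ∀ P : Ideal (MvPolynomial (Fin (c + r)) K), P.IsPrime →
        Ideal.span (Set.range (Fin.append q l)) ≤ P → ((c + t : ℕ) : ℕ∞) ≤ P.height := by
    intro t ht
    induction t with
    | zero =>
      refine ⟨Fin.elim0, fun j => j.elim0, fun P hP hle => hq.le_height c le_rfl P hP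
        (le_trans (Ideal.span_mono ?_) hle)⟩
      rintro _ ⟨i, -, rfl⟩
      exact ⟨Fin.castAdd 0 i, Fin.append_left _ _ _⟩
    | succ t ih =>
      obtain ⟨l, hl, hlh⟩ := ih (by omega)
      set J := Ideal.span (Set.range (Fin.append q l))
      have := (Ideal.finite_minimalPrimes_of_isNoetherianRing _ J).to_subtype
      let W : J.minimalPrimes → Submodule K (part K (c + r) 1) :=
        fun Q => (Q.1.restrictScalars K).comap (part K (c + r) 1).subtype
      obtain ⟨x, hx⟩ := Submodule.exists_forall_notMem_of_forall_ne_top W fun Q htop => by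
        have hX : ∀ i, (X i : MvPolynomial (Fin (c + r)) K) ∈ Q.1 := fun i =>
          (Submodule.eq_top_iff'.1 htop ⟨X i, isHomogeneous_X K i⟩ :)
        have h1 := (hm.trans (Ideal.height_mono (hXm _ hX))).trans
          (Ideal.height_le_card_of_mem_minimalPrimes_span (Set.finite_range _) Q.2)
        have h2 : (Set.range (Fin.append q l)).ncard ≤ c + t := by
          rw [← Nat.card_coe_set_eq]; exact (Finite.card_range_le _).trans (by simp)
        have := Nat.cast_le.1 h1
        omega
      refine ⟨Fin.snoc l x.1, Fin.lastCases (by rw [Fin.snoc_last]; exact x.2) fun j => by simpa using hl j,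
        fun P hP hle => ?_⟩
      have hJP : J ≤ P := le_trans (Ideal.span_mono ?_) hle
      · obtain ⟨Q, hQ, hQP⟩ := Ideal.exists_minimalPrimes_le hJP
        have := hQ.1.1
        have hxP : x.1 ∈ P := hle (Ideal.subset_span
          ⟨Fin.natAdd c (Fin.last t), by rw [Fin.append_right, Fin.snoc_last]⟩)
        have hlt : Q < P := lt_of_le_of_ne hQP fun h => hx ⟨Q, hQ⟩ (show x.1 ∈ Q from h ▸ hxP)
        rw [← Nat.add_assoc]; push_cast
        have h3 := hlh Q hQ.1.1 hQ.1.2
        push_cast at h3
        exact (add_le_add h3 le_rfl).trans (Ideal.height_add_one_le_of_lt_of_isPrime hlt)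
      · rintro _ ⟨i, rfl⟩
        refine Fin.addCases (fun i => ?_) (fun j => ?_) i
        · exact ⟨Fin.castAdd _ i, by simp⟩
        · exact ⟨Fin.natAdd c j.castSucc, by rw [Fin.append_right, Fin.append_right, Fin.snoc_castSucc]⟩
  obtain ⟨l, hl, hlh⟩ := hext r le_rfl
  refine ⟨l, hl, fun v hvq hvl => by_contra fun hv => ?_⟩
  -- the line through a nonzero common zero
  set f : MvPolynomial (Fin (c + r)) K →ₐ[K] Polynomial K := aeval fun i => v i • Polynomial.X
  have hLP : (RingHom.ker f).IsPrime := RingHom.ker_isPrime _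
  have hle : Ideal.span (Set.range (Fin.append q l)) ≤ RingHom.ker f := by
    refine Ideal.span_le.2 ?_
    rintro _ ⟨i, rfl⟩
    refine Fin.addCases (fun i => ?_) (fun j => ?_) i
    · rw [Fin.append_left, SetLike.mem_coe, RingHom.mem_ker, aeval_line (hd i), hvq i, zero_smul]
    · rw [Fin.append_right, SetLike.mem_coe, RingHom.mem_ker, aeval_line (hl j), hvl j, zero_smul]
  have hfX : ∀ i, f (X i) = v i • Polynomial.X := fun i => by simp [f]
  have hkill : killFirst K (c + r) (c + r) = (Algebra.ofId K _).comp (aeval fun _ => (0 : K)) :=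
    algHom_ext fun i => by simp [killFirst]
  have hlt : RingHom.ker f < m := by
    refine lt_of_le_of_ne (fun p hp => ?_) fun h => hv (funext fun i => ?_)
    · have h0 := congrArg (Polynomial.aeval (0 : K)) (show f p = 0 from hp)
      rw [← AlgHom.comp_apply, map_zero, show (Polynomial.aeval (0 : K)).comp f
        = aeval fun _ => (0 : K) from algHom_ext fun i => by simp [f]] at h0
      rw [RingHom.mem_ker, hkill, AlgHom.comp_apply, h0, map_zero]
    · have : (X i : MvPolynomial (Fin (c + r)) K) ∈ RingHom.ker f := by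
        rw [h]; simp [m, RingHom.mem_ker, killFirst]
      rw [RingHom.mem_ker, hfX, smul_eq_zero] at this
      exact this.resolve_right Polynomial.X_ne_zero
  have hmle : m.height ≤ ((c + r : ℕ) : ℕ∞) := by
    refine (Ideal.height_le_card_of_mem_minimalPrimes_span (Set.finite_range X) ⟨⟨hmP, ?_⟩, ?_⟩).trans ?_
    · refine Ideal.span_le.2 ?_
      rintro _ ⟨i, rfl⟩
      simp [m, RingHom.mem_ker, killFirst]
    · rintro P ⟨hP, hPle⟩ -
      exact hXm P fun i => hPle (Ideal.subset_span ⟨i, rfl⟩)
    · exact_mod_cast (show (Set.range (X : Fin (c + r) → MvPolynomial (Fin (c + r)) K)).ncard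
        ≤ c + r by rw [← Nat.card_coe_set_eq]; exact (Finite.card_range_le _).trans (by simp))
  have h4 := ((add_le_add (hlh _ hLP hle) le_rfl).trans
    (Ideal.height_add_one_le_of_lt_of_isPrime hlt)).trans hmle
  have : c + r + 1 ≤ c + r := by exact_mod_cast h4
  omega

/-- A family with only the trivial common zero has finite colength. -/
lemma finiteColength_of_zero {ι : Type*} {q : ι → MvPolynomial (Fin n) K}
    (h : ∀ v, (∀ i, eval v (q i) = 0) → v = 0) : FiniteColength q := by
  set J := Ideal.span (Set.range q)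
  have hX : ∀ i, (X i : MvPolynomial (Fin n) K) ∈ J.radical := fun i => by
    rw [← vanishingIdeal_zeroLocus_eq_radical (K := K), mem_vanishingIdeal_iff]
    intro v hv
    have : v = 0 := h v fun k => by
      simpa [aeval_eq_eval] using hv (q k) (Ideal.subset_span ⟨k, rfl⟩)
    simp [this]
  choose M hM using hX
  refine ⟨(∑ i, M i) + 1, fun p hp => ?_⟩
  rw [p.as_sum]
  refine Ideal.sum_mem _ fun s hs => ?_
  have hsd : s.degree = (∑ i, M i) + 1 := by
    by_contra h'
    exact (mem_support_iff.1 hs) (hp.coeff_eq_zero h')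
  obtain ⟨i, hi⟩ : ∃ i, M i ≤ s i := by
    by_contra h'
    simp only [not_exists, not_le] at h'
    rw [Finsupp.degree_eq_sum] at hsd
    have := Finset.sum_le_sum (s := univ) fun i _ => (h' i).le
    omega
  rw [show s = (s - Finsupp.single i (M i)) + Finsupp.single i (M i) from
    (tsub_add_cancel_of_le (Finsupp.single_le_iff.2 hi)).symm, monomial_add_single]
  exact J.mul_mem_left _ (hM i)

end Vale.Agent.P200.Deg
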