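import Vale.Agent.P200.Deg.Height

/-!
P200: tools for completing `c ≤ n` forms by high powers of linear forms, and boxes of exponents.
-/

noncomputable section

namespace Vale.Agent.P200.Deg

open MvPolynomial Module Finset

variable {K : Type*} [Field K] {n c r : ℕ}

lemma component_mul_homog {g : MvPolynomial (Fin n) K} {N : ℕ} (hg : g.IsHomogeneous N)
    (r : MvPolynomial (Fin n) K) (d : ℕ) :
    homogeneousComponent d (r * g) =
      if N ≤ d then homogeneousComponent (d - N) r * g else 0 := by
  conv_lhs => rw [← sum_homogeneousComponent (φ := r), Finset.sum_mul, map_sum]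
  have hcomp : ∀ i, homogeneousComponent d (homogeneousComponent i r * g) =
      if d = i + N then homogeneousComponent i r * g else 0 := fun i =>
    homogeneousComponent_of_mem ((homogeneousComponent_isHomogeneous i r).mul hg)
  simp only [hcomp]
  split_ifs with hd
  · rw [Finset.sum_eq_single (d - N)]
    · rw [if_pos (by omega)]
    · intro i _ hi; rw [if_neg (by omega)]
    · intro h
      rw [Finset.mem_range, not_lt] at h
      rw [homogeneousComponent_eq_zero _ r (by omega)]; simp
  · exact Finset.sum_eq_zero fun i _ => if_neg (by omega)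

lemma component_span_powers {ι : Type*} {g : ι → MvPolynomial (Fin n) K} {N : ℕ}
    (hg : ∀ i, (g i).IsHomogeneous N) {p : MvPolynomial (Fin n) K}
    (hp : p ∈ Ideal.span (Set.range g)) (d : ℕ) :
    homogeneousComponent d p ∈ Ideal.span (Set.range g) ∧
      (d < N → homogeneousComponent d p = 0) := by
  obtain ⟨f, rfl⟩ := Finsupp.mem_span_range_iff_exists_finsupp.1 hp
  rw [Finsupp.sum, map_sum]
  refine ⟨Ideal.sum_mem _ fun i _ => ?_, fun hd => Finset.sum_eq_zero fun i _ => ?_⟩
  · rw [smul_eq_mul, component_mul_homog (hg i)]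
    split_ifs
    · exact Ideal.mul_mem_left _ _ (Ideal.subset_span ⟨i, rfl⟩)
    · exact Ideal.zero_mem _
  · rw [smul_eq_mul, component_mul_homog (hg i), if_neg (by omega)]

/-- Adding forms of degree `N` keeps homogeneity and changes nothing below degree `N`. -/
lemma sup_powers {ι : Type*} {I : Ideal (MvPolynomial (Fin n) K)} (hI : Homog I)
    {g : ι → MvPolynomial (Fin n) K} {N : ℕ} (hg : ∀ i, (g i).IsHomogeneous N) :
    Homog (I ⊔ Ideal.span (Set.range g)) ∧
      ∀ d < N, hilb (I ⊔ Ideal.span (Set.range g)) d = hilb I d := by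
  refine ⟨fun p hp d => ?_, fun d hd => ?_⟩
  · obtain ⟨u, hu, w, hw, rfl⟩ := Submodule.mem_sup.1 hp
    rw [map_add]
    exact Submodule.add_mem_sup (hI u hu d) (component_span_powers hg hw d).1
  · have : piece (I ⊔ Ideal.span (Set.range g)) d = piece I d := by
      ext p
      rw [mem_piece, mem_piece]
      refine ⟨fun ⟨hp, hpd⟩ => ⟨?_, hpd⟩, fun ⟨hp, hpd⟩ => ⟨Submodule.mem_sup_left hp, hpd⟩⟩
      obtain ⟨u, hu, w, hw, rfl⟩ := Submodule.mem_sup.1 hp
      rw [← homogeneousComponent_eq_self hpd, map_add, (component_span_powers hg hw d).2 hd,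
        add_zero]
      exact hI u hu d
    rw [hilb, hilb, this]

/-- The caps: `a i - 1` on the first `c` variables and `D` on the others. -/
def cap (r : ℕ) (a : Fin c → ℕ) (D : ℕ) : Fin (c + r) → ℕ :=
  Fin.append (fun i => a i - 1) fun _ => D

lemma monotone_append {a : Fin c → ℕ} (ha : Monotone a) {N : ℕ} (hN : ∀ i, a i ≤ N) :
    Monotone (Fin.append a fun _ : Fin r => N) := by
  intro i j hij
  induction i using Fin.addCases with
  | left i =>
    induction j using Fin.addCases with
    | left j => simpa using ha (show i ≤ j from hij)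
    | right j => simpa using hN i
  | right i =>
    induction j using Fin.addCases with
    | left j =>
      have : c + (i : ℕ) ≤ (j : ℕ) := hij
      have := j.isLt
      omega
    | right j => simp

lemma mem_sl_cap {a : Fin c → ℕ} {D e : ℕ} (he : e ≤ D) {x : Fin (c + r) → ℕ} :
    x ∈ Box.sl (cap r a D) 0 e ↔ (∀ i : Fin c, x (Fin.castAdd r i) ≤ a i - 1) ∧ ∑ i, x i = e := by
  rw [Box.mem_sl, Nat.add_zero]
  constructor
  · rintro ⟨h1, h2⟩
    exact ⟨fun i => by simpa [cap] using h1 (Fin.castAdd r i), h2⟩
  · rintro ⟨h1, h2⟩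
    refine ⟨fun i => ?_, h2⟩
    induction i using Fin.addCases with
    | left i => simpa [cap] using h1 i
    | right i =>
      have := Finset.single_le_sum (f := x) (fun _ _ => Nat.zero_le _) (mem_univ (Fin.natAdd c i))
      simp [cap]; omega

/-- All exponent vectors of degree `d`. -/
lemma card_monomials (d : ℕ) :
    (Box.sl (fun _ : Fin n => d) 0 d).card = finrank K (part K n d) := by
  classical
  have hK := (MvPolynomial.basisMonomials (Fin n) K).linearIndependent
  rw [coe_basisMonomials] at hK
  have hfin : Finite {s : Fin n →₀ ℕ | s.degree = d} := (Finsupp.finite_of_degree_eq d).to_subtype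
  have := Fintype.ofFinite {s : Fin n →₀ ℕ | s.degree = d}
  rw [part_eq_span_monomials, Set.image_eq_range]
  refine Eq.trans ?_ (finrank_span_eq_card (hK.comp _ Subtype.val_injective)).symm
  rw [← Fintype.card_coe]
  refine Fintype.card_congr ((Equiv.subtypeEquiv Finsupp.equivFunOnFinite fun s => ?_).symm)
  simp only [Set.mem_ofPred_eq, Finsupp.degree_eq_sum, Box.mem_sl, Finsupp.equivFunOnFinite_apply,
    Nat.add_zero]
  exact ⟨fun h => ⟨fun i => h ▸ Finset.single_le_sum (fun _ _ => Nat.zero_le _) (mem_univ i), h⟩,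
    fun h => h.2⟩

end Vale.Agent.P200.Deg
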