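import Vale.Agent.P200.Deg.ConicTrick
import Vale.Agent.P200.Box.Complex

/-!
P200: EGH for `n` forms of finite colength in `n` variables, of arbitrary degrees, all of which
split into linear factors except at most two, at most three including a quadric, or at most four
quadrics.
-/

noncomputable section

namespace Vale.Agent.P200.Deg

open MvPolynomial Module Finset

variable {K : Type*} [Field K] {n : ℕ}

variable [IsAlgClosed K]

open Classical in
/-- The forms that do not split. -/
def bad (a : Fin n → ℕ) (q : Fin n → MvPolynomial (Fin n) K) : Finset (Fin n) :=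
  univ.filter fun i => ¬SplitN (a i) (q i)

/-- At most two forms, or three including a quadric, or at most four quadrics, fail to split. -/
def FewBad (a : Fin n → ℕ) (q : Fin n → MvPolynomial (Fin n) K) : Prop :=
  (bad a q).card ≤ 2 ∨ ((bad a q).card ≤ 4 ∧ ∀ i ∈ bad a q, a i = 2) ∨
    ((bad a q).card ≤ 3 ∧ ∃ i ∈ bad a q, a i = 2)

lemma exists_split (I : Ideal (MvPolynomial (Fin (n + 1)) K)) {a : Fin (n + 1) → ℕ}
    (ha : ∀ i, 1 ≤ a i) (q : Fin (n + 1) → MvPolynomial (Fin (n + 1)) K) (hI : ∀ i, q i ∈ I)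
    (hd : ∀ i, (q i).IsHomogeneous (a i)) (hfc : FiniteColength q) (hb : FewBad a q) :
    ∃ q' : Fin (n + 1) → MvPolynomial (Fin (n + 1)) K, (∀ i, q' i ∈ I) ∧
      (∀ i, (q' i).IsHomogeneous (a i)) ∧ FiniteColength q' ∧ FewBad a q' ∧
        ∃ j, SplitN (a j) (q' j) := by
  classical
  by_cases h : ∃ j, SplitN (a j) (q j)
  · exact ⟨q, hI, hd, hfc, hb, h⟩
  simp only [not_exists] at h
  have hall : bad a q = univ := Finset.filter_true_of_mem fun i _ => h i
  rw [FewBad, hall, card_univ, Fintype.card_fin] at hb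
  rcases hb with hb | ⟨hn, ha2⟩ | ⟨hn, i, -, hi⟩
  · exact absurd (splitN_of_le_two hb (hd 0) (ha 0)) (h 0)
  · obtain rfl : a = fun _ => 2 := funext fun i => ha2 i (mem_univ i)
    have hns : FewNonsplit q := (Finset.card_le_univ _).trans (by simpa using hn)
    obtain ⟨q', h1, h2, h3, -, j, h5⟩ := exists_split_family I q hI hd hfc hns
    exact ⟨q', h1, h2, h3, Or.inr (Or.inl ⟨(Finset.card_le_univ _).trans (by simpa using hn),
      fun _ _ => rfl⟩), j, splitN_two.2 h5⟩
  · rcases Nat.lt_or_ge (n + 1) 3 with hlt | hge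
    · exact absurd (splitN_of_le_two (by omega) (hd 0) (ha 0)) (h 0)
    obtain rfl : n = 2 := by omega
    obtain ⟨j, hji⟩ := exists_ne i
    obtain ⟨k, hk⟩ : ∃ k, a j = k + 2 := ⟨a j - 2, by
      have := ha j
      by_contra hcon
      have hj1 : a j = 1 := by omega
      refine h j ⟨fun _ => q j, fun _ => (show (q j).IsHomogeneous 1 from by have h' := hd j; rwa [hj1] at h'), ?_⟩
      rw [Finset.prod_const, Finset.card_univ, Fintype.card_fin, hj1, pow_one]⟩
    have hqi : (q i).IsHomogeneous 2 := by have h' := hd i; rwa [hi] at h'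
    obtain ⟨g, hg, hgh⟩ := split_mod_conic hqi
      (fun hs => h i (by rw [hi]; exact splitN_two.2 hs)) (f := q j) (k := k)
      (by have h' := hd j; rwa [hk] at h')
    set q' := Function.update q j (q j - q i * g) with hq'
    refine ⟨q', fun x => ?_, fun x => ?_, ?_,
      Or.inr (Or.inr ⟨(Finset.card_le_univ _).trans (by simp), i, by
        simp only [bad, mem_filter, mem_univ, true_and, hq', Function.update_of_ne hji.symm]
        exact h i, hi⟩), j,
      by rw [hk, hq', Function.update_self]; exact hg⟩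
    · rcases eq_or_ne x j with rfl | hx
      · rw [hq', Function.update_self]; exact I.sub_mem (hI x) (I.mul_mem_right _ (hI i))
      · rw [hq', Function.update_of_ne hx]; exact hI x
    · rcases eq_or_ne x j with rfl | hx
      · rw [hq', Function.update_self]
        refine (hd x).sub ?_
        have h' : (q i * g).IsHomogeneous (2 + k) := hqi.mul hgh
        rwa [show 2 + k = a x by omega] at h'
      · rw [hq', Function.update_of_ne hx]; exact hd x
    · obtain ⟨N, hN⟩ := hfc
      refine ⟨N, fun p hp => (Ideal.span_le.2 ?_) (hN p hp)⟩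
      rintro _ ⟨x, rfl⟩
      have hmem : ∀ y, q' y ∈ Ideal.span (Set.range q') := fun y => Ideal.subset_span ⟨y, rfl⟩
      have hi' : q' i = q i := by rw [hq', Function.update_of_ne hji.symm]
      rcases eq_or_ne x j with rfl | hx
      · rw [SetLike.mem_coe, show q x = q' x + q' i * g by rw [hi', hq', Function.update_self]; ring]
        exact add_mem (hmem x) (Ideal.mul_mem_right _ _ (hmem i))
      · rw [SetLike.mem_coe, show q x = q' x by rw [hq', Function.update_of_ne hx]]
        exact hmem x

omit [IsAlgClosed K] in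
/-- Peeling the linear factors one at a time, the best one first. -/
lemma peel_layers {c : Fin n → ℕ} (m : ℕ) : ∀ (l : Fin m → MvPolynomial (Fin (n + 1)) K)
    (H : ∀ k, Hyper (l k)), (∀ k, (l k).IsHomogeneous 1) → (∀ k, l k ≠ 0) →
    ∀ J : Ideal (MvPolynomial (Fin (n + 1)) K), Homog J → (∏ k, l k) ∈ J →
    (∀ k J', Homog J' → J ≤ J' → Box.Good c (hilb ((H k).res J'))) → ∀ e,
    ∃ g B : ℕ → ℕ, hilb J e = ∑ k ∈ range m, g k ∧
      (∑ k ∈ range m, B k) ≤ (if e = 0 then 0 else hilb J (e - 1)) ∧
      (∀ k < m, ∃ T, T ⊆ Box.sl c k e ∧ T.card = g k ∧ (Box.shadow T).card ≤ B k) ∧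
      (∀ k, k + 1 < m → g (k + 1) ≤ B k) ∧ (0 < m → ∃ k, g 0 ≤ hilb ((H k).res J) e) := by
  induction m with
  | zero =>
    intro l H _ _ J _ hJ _ e
    have : J = ⊤ := (Ideal.eq_top_iff_one J).2 (by simpa using hJ)
    exact ⟨0, 0, by simp [this, hilb_top], by simp, by simp, by simp, by simp⟩
  | succ m ih =>
    intro l H hl hl0 J hJ hprod hgood e
    rcases e with _ | e
    · refine ⟨fun k => if k = 0 then hilb J 0 else 0, 0, by simp [Finset.sum_ite_eq'],
        by simp, fun k _ => ?_, by simp, fun _ => ⟨0, by simp [(H 0).hilb_zero hJ (hl 0)]⟩⟩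
      rcases eq_or_ne k 0 with rfl | hk
      · obtain ⟨T, hT, hTc⟩ := Box.exists_seg (Box.sl c 0 0) (hilb J 0) ((hilb_zero_le J).trans
          (card_pos.2 ⟨0, Box.mem_sl.2 ⟨fun _ => Nat.zero_le _, by simp⟩⟩))
        exact ⟨T, hT.1, by simp [hTc], by simp [Box.shadow_sl_self hT.1]⟩
      · exact ⟨∅, empty_subset _, by simp [hk], by simp [Box.shadow]⟩
    · obtain ⟨i, -, hmax⟩ := exists_max_image univ (fun k => hilb ((H k).res J) e) univ_nonempty
      have hJ' : Homog (colon J (l i)) := hJ.colon (hl i)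
      have hprod' : (∏ k, l (i.succAbove k)) ∈ colon J (l i) := by
        rw [mem_colon]
        rwa [Fin.prod_univ_succAbove l i] at hprod
      obtain ⟨g', B', hsum, hBsum, hT', hch, h0⟩ := ih (fun k => l (i.succAbove k))
        (fun k => H (i.succAbove k)) (fun k => hl _) (fun k => hl0 _) _ hJ' hprod'
        (fun k J' hJ'' hle => hgood _ J' hJ'' ((le_colon J (l i)).trans hle)) e
      obtain ⟨T, hT, hTc, hTs⟩ := (hgood i J hJ le_rfl).2 e
      refine ⟨fun | 0 => hilb ((H i).res J) (e + 1) | k + 1 => g' k,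
        fun | 0 => hilb ((H i).res J) e | k + 1 => B' k, ?_, ?_, ?_, ?_, fun _ => ⟨i, le_rfl⟩⟩
      · rw [Finset.sum_range_succ', (H i).hilb_succ hJ (hl i) (hl0 i) e, hsum]
      · rw [Finset.sum_range_succ', if_neg (Nat.succ_ne_zero e), Nat.succ_sub_one]
        dsimp only
        rcases e with _ | e
        · simp only [if_pos] at hBsum
          rw [(H i).hilb_zero hJ (hl i)]
          omega
        · rw [if_neg (Nat.succ_ne_zero e), Nat.succ_sub_one] at hBsum
          rw [(H i).hilb_succ hJ (hl i) (hl0 i) e]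
          omega
      · rintro (_ | k) hk
        · exact ⟨T, hT, hTc, hTs⟩
        · obtain ⟨U, hU, hUc, hUs⟩ := hT' k (by omega)
          exact ⟨U, by rwa [Box.sl_succ_eq], hUc, hUs⟩
      · rintro (_ | k) hk
        · obtain ⟨j, hj⟩ := h0 (by omega)
          exact hj.trans ((hilb_anti (Ideal.map_mono (le_colon J (l i))) e).trans
            (hmax _ (mem_univ _)))
        · exact hch k (by omega)

open Classical in
/-- EGH in numerical form. -/
theorem good_hilb : ∀ (n : ℕ) (I : Ideal (MvPolynomial (Fin n) K)), Homog I →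
    ∀ a : Fin n → ℕ, (∀ i, 1 ≤ a i) → Monotone a →
    ∀ q : Fin n → MvPolynomial (Fin n) K, (∀ i, q i ∈ I) → (∀ i, (q i).IsHomogeneous (a i)) →
      FiniteColength q → FewBad a q → Box.Good (fun i => a i - 1) (hilb I) := by
  intro n
  induction n with
  | zero =>
    intro I _ a _ _ _ _ _ _ _
    refine ⟨hilb_zero_le I, fun d => ⟨∅, empty_subset _, ?_, by simp [Box.shadow]⟩⟩
    have : finrank K (part K 0 (d + 1)) = 0 := by rw [piece_zero_vars]; simp
    simp [hilb, this]
  | succ n ih =>
    intro I hI a ha1 hmono q₀ hq₀ hd₀ hfc₀ hb₀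
    obtain ⟨q, hq, hd, hfc, hb, j, L, hL, hqj⟩ := exists_split I ha1 q₀ hq₀ hd₀ hfc₀ hb₀
    have hj0 : q j ≠ 0 := by
      intro h0
      have hfc' : FiniteColength (q ∘ j.succAbove) := by
        obtain ⟨N, hN⟩ := hfc
        refine ⟨N, fun p hp => (Ideal.span_le.2 ?_) (hN p hp)⟩
        rintro _ ⟨i, rfl⟩
        refine Fin.succAboveCases j ?_ (fun k => ?_) i
        · rw [h0]; exact Submodule.zero_mem _
        · exact Ideal.subset_span ⟨k, rfl⟩
      have := card_ge hfc' (fun i => ha1 (j.succAbove i)) fun i => hd _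
      simp at this
    have hL0 : ∀ k, L k ≠ 0 := fun k h => hj0 (by rw [hqj]; exact prod_eq_zero (mem_univ k) h)
    -- restriction to a hyperplane containing the split form
    have hres : ∀ (k : Fin (a j)) (H : Hyper (L k)) (J : Ideal (MvPolynomial (Fin (n + 1)) K)),
        Homog J → I ≤ J → Box.Good (fun i => a (j.succAbove i) - 1) (hilb (H.res J)) := by
      intro k H J hJ hle
      have hc : H.φ (q j) = 0 := by
        rw [hqj, map_prod]; exact prod_eq_zero (mem_univ k) H.φ_a
      refine ih (H.res J) (H.homog_res hJ) _ (fun i => ha1 _)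
        (hmono.comp (Fin.strictMono_succAbove j).monotone) (fun i => H.φ (q (j.succAbove i)))
        (fun i => H.mem_res.2 ⟨_, hle (hq _), rfl⟩) (fun i => H.hφ (hd _)) ?_ ?_
      · obtain ⟨N, hN⟩ := hfc
        refine ⟨N, fun p hp => ?_⟩
        have h1 := Ideal.mem_map_of_mem H.φ (hN _ (H.hsec hp))
        rw [H.φ_sec, Ideal.map_span] at h1
        refine (Ideal.span_le.2 ?_) h1
        rintro _ ⟨_, ⟨i, rfl⟩, rfl⟩
        refine Fin.succAboveCases j ?_ (fun k => ?_) i
        · rw [hc]; exact Submodule.zero_mem _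
        · exact Ideal.subset_span ⟨k, rfl⟩
      · have hmap : ∀ i, i ∈ bad (fun i => a (j.succAbove i)) (fun i => H.φ (q (j.succAbove i))) →
            j.succAbove i ∈ bad a q := by
          intro i hi
          simp only [bad, mem_filter, mem_univ, true_and] at hi ⊢
          rintro ⟨M, hM, e⟩
          exact hi ⟨fun k => H.φ (M k), fun k => H.hφ (hM k), by rw [e, map_prod]⟩
        have hcard := Finset.card_le_card_of_injOn j.succAbove hmap
          (Fin.succAbove_right_injective.injOn)
        rcases hb with h | h | ⟨h, i, hi⟩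
        · exact Or.inl (hcard.trans h)
        · exact Or.inr (Or.inl ⟨hcard.trans h.1, fun i hi => h.2 _ (hmap i hi)⟩)
        · by_cases hex : ∃ i' ∈ bad (fun i => a (j.succAbove i))
              (fun i => H.φ (q (j.succAbove i))), a (j.succAbove i') = 2
          · exact Or.inr (Or.inr ⟨hcard.trans h, hex⟩)
          refine Or.inl ((Finset.card_le_card_of_injOn j.succAbove (t := (bad a q).erase i)
            (fun x hx => mem_erase.2 ⟨fun e => hex ⟨x, hx, e ▸ hi.2⟩, hmap x hx⟩)
            (Fin.succAbove_right_injective.injOn)).trans ?_)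
          rw [card_erase_of_mem hi.1]
          omega
    have hex : ∀ k, Nonempty (Hyper (L k)) := fun k => exists_hyper (hL k) (hL0 k)
    let H := fun k => (hex k).some
    refine Box.good_glue (fun x y hxy => Nat.sub_le_sub_right (hmono hxy) 1) j (hilb_zero_le I)
      fun d => ?_
    have haj : a j - 1 + 1 = a j := Nat.sub_add_cancel (ha1 j)
    obtain ⟨g, B, h1, h2, h3, h4, -⟩ := peel_layers (c := fun i => a (j.succAbove i) - 1) (a j)
      L H hL hL0 I hI (hqj ▸ hq j) (fun k J hJ hle => hres k (H k) J hJ hle) (d + 1)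
    exact ⟨g, B, fun k hk => h3 k (by omega), fun k hk => h4 k (by omega), by rw [haj]; exact h1,
      by rw [haj]; simpa using h2⟩

end Vale.Agent.P200.Deg
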