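import Vale.Agent.P200.Descent

/-!
P200: products of linear forms; forms in two variables split over an algebraically closed field.
-/

noncomputable section

namespace Vale.Agent.P200.Deg

open MvPolynomial Module Finset

variable {K : Type*} [Field K] {n : ℕ}

/-- A product of `a` linear forms. -/
def SplitN (a : ℕ) (p : MvPolynomial (Fin n) K) : Prop :=
  ∃ L : Fin a → MvPolynomial (Fin n) K, (∀ k, (L k).IsHomogeneous 1) ∧ p = ∏ k, L k

lemma splitN_two {p : MvPolynomial (Fin n) K} : SplitN 2 p ↔ Split p := by
  constructor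
  · rintro ⟨L, hL, rfl⟩
    exact ⟨L 0, L 1, hL 0, hL 1, Fin.prod_univ_two L⟩
  · rintro ⟨a, b, ha, hb, rfl⟩
    exact ⟨![a, b], fun k => by fin_cases k <;> assumption, by simp [Fin.prod_univ_two]⟩

/-- Finite colength passes to an extension of the field. -/
lemma finiteColength_ext {L : Type*} [Field L] [Algebra K L] {ι : Type*}
    {q : ι → MvPolynomial (Fin n) K} (hfc : FiniteColength q) :
    FiniteColength fun i => ext L (q i) := by
  obtain ⟨N, hN⟩ := hfc
  refine ⟨N, fun p hp => ?_⟩
  rw [p.as_sum]
  refine Ideal.sum_mem _ fun s hs => ?_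
  have hsd : s.degree = N := by
    by_contra h
    exact (mem_support_iff.1 hs) (hp.coeff_eq_zero h)
  have h1 := Ideal.mem_map_of_mem (ext L) (hN (monomial s 1) (isHomogeneous_monomial _ hsd))
  rw [Ideal.map_span, ← Set.range_comp, map_monomial, map_one] at h1
  have e : monomial s (coeff s p) = C (coeff s p) * monomial s (1 : L) := by
    rw [C_mul_monomial, mul_one]
  rw [e]
  exact Ideal.mul_mem_left _ _ h1

/-- Fewer than `n` forms of positive degree never have finite colength in `n` variables. -/
theorem card_ge {ι : Type*} [Fintype ι] {q : ι → MvPolynomial (Fin n) K}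
    (hq : FiniteColength q) {a : ι → ℕ} (ha : ∀ i, 1 ≤ a i)
    (hd : ∀ i, (q i).IsHomogeneous (a i)) : n ≤ Fintype.card ι := by
  classical
  set m := RingHom.ker (killFirst K n n)
  have := isPrime_killFirst (K := K) n n
  obtain ⟨N, hN⟩ := hq
  have hkill : killFirst K n n = (Algebra.ofId K _).comp (aeval fun _ : Fin n => (0 : K)) :=
    algHom_ext fun i => by simp [killFirst]
  have hm : m ∈ (Ideal.span (Set.range q)).minimalPrimes := by
    refine ⟨⟨isPrime_killFirst n n, Ideal.span_le.2 ?_⟩, ?_⟩
    · rintro _ ⟨i, rfl⟩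
      rw [SetLike.mem_coe, RingHom.mem_ker, hkill, AlgHom.comp_apply]
      have : aeval (fun _ : Fin n => (0 : K)) (q i) = 0 := by
        rw [aeval_zero']
        simp [constantCoeff_eq, (hd i).coeff_eq_zero (d := 0) (by simp; linarith [ha i])]
      rw [this, map_zero]
    · rintro P ⟨hP, hle⟩ - p hp
      have hX : ∀ i, (X i : MvPolynomial (Fin n) K) ∈ P := fun i =>
        hP.mem_of_pow_mem N (hle (hN _ (isHomogeneous_X_pow i N)))
      have hcong : (Ideal.Quotient.mkₐ K P).comp (killFirst K n n) = Ideal.Quotient.mkₐ K P :=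
        algHom_ext fun i => by
          simp [killFirst, Ideal.Quotient.eq_zero_iff_mem.2 (hX i)]
      have : Ideal.Quotient.mkₐ K P p = 0 := by
        rw [← hcong, AlgHom.comp_apply, show killFirst K n n p = 0 from hp, map_zero]
      exact Ideal.Quotient.eq_zero_iff_mem.1 this
  have h1 := (le_primeHeight_killFirst (K := K) n n le_rfl).trans
    (Ideal.height_le_card_of_mem_minimalPrimes_span (Set.finite_range q) hm)
  have h2 : (Set.range q).ncard ≤ Fintype.card ι := by
    rw [← Nat.card_eq_fintype_card, ← Nat.card_coe_set_eq]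
    exact Finite.card_range_le q
  exact (Nat.cast_le.1 h1).trans h2

lemma aeval_line {R : Type*} [CommRing R] [Algebra K R] {p : MvPolynomial (Fin n) K} {a : ℕ}
    (hp : p.IsHomogeneous a) (v : Fin n → K) (r : R) :
    aeval (fun i => v i • r) p = eval v p • r ^ a := by
  rw [p.as_sum, map_sum, map_sum, sum_smul]
  refine Finset.sum_congr rfl fun s hs => ?_
  have hsd : s.degree = a := by
    by_contra h
    exact (mem_support_iff.1 hs) (hp.coeff_eq_zero h)
  simp only [aeval_monomial, eval_monomial, Finsupp.prod, smul_pow, Algebra.smul_def, map_mul,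
    map_prod, map_pow, mul_pow, prod_mul_distrib, prod_pow_eq_pow_sum]
  rw [← hsd, Finsupp.degree_apply]
  ring

variable [IsAlgClosed K]

/-- Binary forms split. -/
theorem splitN_binary : ∀ (a : ℕ) (p : MvPolynomial (Fin 2) K), p.IsHomogeneous a → 1 ≤ a →
    SplitN a p
  | 0, _, _, h => absurd h (by omega)
  | 1, p, hp, _ => ⟨fun _ => p, fun _ => hp, by simp⟩
  | a + 2, p, hp, _ => by
    obtain ⟨v, hv, hv0⟩ : ∃ v : Fin 2 → K, v ≠ 0 ∧ eval v p = 0 := by
      by_cases h10 : eval ![1, 0] p = 0
      · exact ⟨![1, 0], fun h => one_ne_zero (congrFun h 0), h10⟩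
      set P : Polynomial K := aeval ![Polynomial.X, 1] p with hP
      have heval : ∀ t : K, P.eval t = eval ![t, 1] p := fun t => by
        have h : (Polynomial.aeval t).comp (aeval ![(Polynomial.X : Polynomial K), 1])
            = aeval (![t, 1] : Fin 2 → K) :=
          algHom_ext fun i => by fin_cases i <;> simp
        simpa [Polynomial.coe_aeval_eq_eval] using DFunLike.congr_fun h p
      have hdeg : P.degree ≠ 0 := by
        intro hd
        have hc := Polynomial.eq_C_of_degree_eq_zero hd
        have h0 : P.coeff (a + 2) = 0 := by rw [hc, Polynomial.coeff_C]; simp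
        refine h10 ?_
        rw [hP, p.as_sum, map_sum, Polynomial.finsetSum_coeff] at h0
        rw [p.as_sum, map_sum]
        refine Eq.trans ?_ h0
        refine Finset.sum_congr rfl fun s hs => ?_
        have hsd : s.degree = a + 2 := by
          by_contra h
          exact (mem_support_iff.1 hs) (hp.coeff_eq_zero h)
        rw [Finsupp.degree_eq_sum, Fin.sum_univ_two] at hsd
        simp only [aeval_monomial, eval_monomial, Finsupp.prod_fintype, pow_zero, implies_true,
          Fin.prod_univ_two, Matrix.cons_val_zero, Matrix.cons_val_one, one_pow, mul_one,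
          Polynomial.algebraMap_eq, Polynomial.coeff_C_mul, Polynomial.coeff_X_pow, zero_pow_eq]
        by_cases hs1 : s 1 = 0
        · rw [if_pos hs1, if_pos (by omega), one_mul]
        · rw [if_neg hs1, if_neg (by omega), one_mul]
      obtain ⟨t, ht⟩ := IsAlgClosed.exists_root P hdeg
      exact ⟨![t, 1], fun h => one_ne_zero (congrFun h 1), (heval t).symm.trans ht⟩
    set l : MvPolynomial (Fin 2) K := v 1 • X 0 - v 0 • X 1 with hl
    have hlh : l.IsHomogeneous 1 := by
      simp only [hl, smul_eq_C_mul]
      exact ((isHomogeneous_X K 0).C_mul _).sub ((isHomogeneous_X K 1).C_mul _)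
    -- `p` vanishes modulo `l`
    have hmem : p ∈ Ideal.span {l} := by
      rw [← Ideal.Quotient.eq_zero_iff_mem]
      set mk := Ideal.Quotient.mkₐ K (Ideal.span {l})
      have hl0 : v 1 • mk (X 0) = v 0 • mk (X 1) := by
        rw [← sub_eq_zero, ← map_smul, ← map_smul, ← map_sub]
        exact Ideal.Quotient.eq_zero_iff_mem.2 (Ideal.subset_span rfl)
      obtain ⟨r, hr⟩ : ∃ r, ∀ i, mk (X i) = v i • r := by
        by_cases h1 : v 1 = 0
        · have h0 : v 0 ≠ 0 := fun h => hv (funext fun i => by fin_cases i <;> assumption)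
          have hx : mk (X 1) = 0 := by
            rw [h1, zero_smul] at hl0
            rw [← inv_smul_smul₀ h0 (mk (X 1)), ← hl0, smul_zero]
          refine ⟨(v 0)⁻¹ • mk (X 0), fun i => ?_⟩
          fin_cases i
          · exact (smul_inv_smul₀ h0 _).symm
          · simp [h1, hx]
        · refine ⟨(v 1)⁻¹ • mk (X 1), fun i => ?_⟩
          fin_cases i
          · simp only [Fin.zero_eta]
            rw [smul_comm, ← hl0, inv_smul_smul₀ h1]
          · exact (smul_inv_smul₀ h1 _).symm
      show mk p = 0
      rw [show mk = aeval (fun i => v i • r) from algHom_ext fun i => by rw [aeval_X, hr i],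
        aeval_line hp, hv0, zero_smul]
    obtain ⟨r, hr⟩ := Ideal.mem_span_singleton'.1 hmem
    obtain ⟨L, hL, hLe⟩ := splitN_binary (a + 1) (homogeneousComponent (a + 1) r)
      (homogeneousComponent_isHomogeneous _ _) (by omega)
    refine ⟨Fin.cons l L, fun k => Fin.cases (by simpa using hlh) (fun k => by simpa using hL k) k, ?_⟩
    rw [Fin.prod_univ_succ]
    simp only [Fin.cons_zero, Fin.cons_succ]
    rw [← hLe, ← component_mul hlh, mul_comm, hr, homogeneousComponent_eq_self hp]

/-- Forms in one or two variables split. -/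
lemma splitN_of_le_two (hn : n + 1 ≤ 2) {p : MvPolynomial (Fin (n + 1)) K} {a : ℕ}
    (hp : p.IsHomogeneous a) (ha : 1 ≤ a) : SplitN a p := by
  obtain rfl | rfl : n = 0 ∨ n = 1 := by omega
  · obtain ⟨b, rfl⟩ : ∃ b, a = b + 1 := ⟨a - 1, by omega⟩
    have h := aeval_line hp (fun _ => (1 : K)) (X 0 : MvPolynomial (Fin 1) K)
    simp only [one_smul] at h
    rw [show (fun _ : Fin 1 => (X 0 : MvPolynomial (Fin 1) K)) = X from
      funext fun i => by rw [Subsingleton.elim i 0], aeval_X_left_apply] at h
    refine ⟨Fin.cons (eval (fun _ => 1) p • X 0) fun _ => X 0, ?_, ?_⟩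
    · refine fun k => Fin.cases ?_ (fun k => by simpa using isHomogeneous_X K (0 : Fin 1)) k
      simpa [smul_eq_C_mul] using (isHomogeneous_X K (0 : Fin 1)).C_mul _
    · rw [Fin.prod_univ_succ]
      simp only [Fin.cons_zero, Fin.cons_succ, prod_const, card_univ, Fintype.card_fin]
      conv_lhs => rw [h]
      rw [smul_mul_assoc, pow_succ']
  · exact splitN_binary a p hp ha

end Vale.Agent.P200.Deg
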